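import Vale.Agent.P022S.Pt.T2
import Vale.Agent.P022G.Rw.FinA

/-!
# P022S: the three steps of the chain argument in the ring of level zero (abstract form)
-/

set_option linter.all false

open IsLocalRing Filter

noncomputable section

namespace Vale.Agent.P022S.Pt

open Vale.Agent.P022D.PA Vale.Agent.P022D.As.EA
open Vale.Agent.P022D.Core (ty)
open Vale.Agent.P022G.Pt

variable {P S₀ S L κ A : Type} [CommRing P] [Base P] [CommRing S₀] [CommRing S] [Algebra S₀ S]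
  [Fintype L] [CommRing A]

/-- the projection to level zero: `p` is the curve, `e` the relations, `IA J` the equations of the
type `J` -/
structure Lz (X : RD P S₀ S L κ) (jr : P →+* A) (p e : Ideal A) (IA : Finset L → Ideal A) :
    Prop where
  sur : Function.Surjective jr
  hp : X.p0 = p.comap jr
  he : X.𝔢 ≤ e.comap jr
  ip : ∀ J (Z : Ideal A), e ≤ Z → (X.IP J ≤ Z.comap jr ↔ IA J ≤ Z)

/-- a prime of level zero and characteristic two inside the curve, outside the denominator -/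
structure Gp (X : RD P S₀ S L κ) (jr : P →+* A) (p e : Ideal A) (d : P) (E : Ideal A) : Prop where
  pr : E.IsPrime
  le : E ≤ p
  he : e ≤ E
  pi : jr X.π ∈ E
  hd : jr d ∉ E

variable [Fintype κ] [IsNoetherianRing S₀] {X : RD P S₀ S L κ} {U : Ultrafilter ℕ}
  {ι I : Type} [Fintype ι] {u : ℕ → ι → P} {a : ι → P} {D : ℕ → P} {d : P} {ses : I → I → I → Prop}
  {iJ : Finset L → I} {jr : P →+* A} {p e : Ideal A} {IA : Finset L → Ideal A}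

theorem le_of_comap (hf : Function.Surjective jr) {I E : Ideal A}
    (h : I.comap jr ≤ E.comap jr) : I ≤ E := fun x hx => by
  obtain ⟨y, rfl⟩ := hf x
  exact h hx

theorem Lz.sf (Z : Lz X jr p e IA) {E : Ideal A} (h : Gp X jr p e d E) {J : Finset L}
    (hJ : IA J ≤ E) : Sf X d J :=
  haveI := h.pr
  ⟨E.comap jr, inferInstance, Z.hp ▸ Ideal.comap_mono h.le, Z.he.trans (Ideal.comap_mono h.he), h.pi,
    (Z.ip J E h.he).2 hJ, h.hd⟩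

section
variable {M : I → ℕ → Type} {G : I → Type} [∀ i n, AddCommGroup (M i n)]
  [∀ i n, Module P (M i n)] [∀ i, AddCommGroup (G i)] [∀ i, Module P (G i)]

theorem Lz.up (Z : Lz X jr p e IA) (H : X.Ok3) (K : MD0 X U u a D d M G ses iJ) {J : Finset L}
    {E : Ideal A} (h : Gp X jr p e d E) (h2 : ((2 : ℕ) : WithBot ℕ∞) ≤ ringKrullDim (A ⧸ E))
    (h3 : Module.annihilator P (G (iJ J)) ≤ E.comap jr) : Au3 X U M iJ J :=
  haveI := h.pr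
  upJ H K (E := E.comap jr) inferInstance (Z.hp ▸ Ideal.comap_mono h.le)
    (by rw [P022G.Fin.dim_comap Z.sur]; exact_mod_cast h2) h3 h.hd

theorem Lz.dn (Z : Lz X jr p e IA) (H : X.Ok3) (K : MD0 X U u a D d M G ses iJ) {J : Finset L}
    {E : Ideal A} (h : Gp X jr p e d E) (hJ : IA J ≤ E) (au : Au3 X U M iJ J) :
    Module.annihilator P (G (iJ J)) ≤ E.comap jr :=
  haveI := h.pr
  dnJ H K au (E := E.comap jr) inferInstance (Z.hp ▸ Ideal.comap_mono h.le)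
    (Z.he.trans (Ideal.comap_mono h.he)) h.pi ((Z.ip J E h.he).2 hJ) h.hd

/-- **PATCH** -/
theorem Lz.patch (Z : Lz X jr p e IA) (H : X.Ok3) (K : MD0 X U u a D d M G ses iJ) {J : Finset L}
    {B E E' : Ideal A} (hB : Module.annihilator P (G (iJ J)) = B.comap jr) (h : Gp X jr p e d E)
    (h' : Gp X jr p e d E') (h2 : ((2 : ℕ) : WithBot ℕ∞) ≤ ringKrullDim (A ⧸ E)) (hJ : IA J ≤ E')
    (h3 : B ≤ E) : B ≤ E' :=
  le_of_comap Z.sur (hB ▸ Z.dn H K h' hJ (Z.up H K h h2 (hB ▸ Ideal.comap_mono h3)))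

/-- **LOWER** -/
theorem Lz.lower (Z : Lz X jr p e IA) (H : X.Ok3) (K : MD0 X U u a D d M G ses iJ) {ib : I}
    {E₀ : Ideal S₀} {C : ℕ → Type} [∀ n, AddCommGroup (C n)] [∀ n, Module P (C n)]
    (F : FD X U u D M G ib E₀ C) {J J' : Finset L} (W : X.IJ J ≤ X.p1 → LD X ses iJ ib E₀ J J')
    {B B' E E' : Ideal A} (hB : Module.annihilator P (G (iJ J')) = B.comap jr)
    (hB' : Module.annihilator P (G (iJ J)) = B'.comap jr) (h : Gp X jr p e d E)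
    (h' : Gp X jr p e d E') (h2 : ((2 : ℕ) : WithBot ℕ∞) ≤ ringKrullDim (A ⧸ E)) (hJ : IA J' ≤ E)
    (hJ' : IA J ≤ E') (h3 : B ≤ E) : B' ≤ E' := by
  have h4 : X.IJ J ≤ X.p1 := (H.ij _ (T.pm_p H) (by
      change X.π ∈ X.p0
      rw [Z.hp]
      exact h.le h.pi) J).1 (by
    change _ ≤ X.p0
    rw [Z.hp]
    exact (Z.ip J p (h.he.trans h.le)).2 (hJ'.trans h'.le))
  exact le_of_comap Z.sur (hB' ▸ Z.dn H K h' hJ' (low H K F (W h4)
    (Z.up H K h h2 (hB ▸ Ideal.comap_mono h3)) (Z.sf h hJ) (Z.sf h' hJ')))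

end

/-- **FINAL** -/
theorem Lz.final [IsNoetherianRing S] (Z : Lz X jr p e IA) (H : X.Ok3) {Yb : I → ℕ → Type}
    {Y0 : I → Type} [∀ i n, AddCommGroup (Yb i n)] [∀ i n, Module P (Yb i n)]
    [∀ i, AddCommGroup (Y0 i)] [∀ i, Module P (Y0 i)] {Wc : ℕ → Type} [∀ n, AddCommGroup (Wc n)]
    [∀ n, Module P (Wc n)] {ig : I} (HM : DM X.π u D Yb Y0 ses) (HF : DF X.π u Yb ig Wc)
    (K : MD0 X U u a D d (fun i => Du (Yb i)) (fun i => CharacterModule (Y0 i)) ses iJ)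
    {E₀ : Ideal S₀} (le : X.E ≤ E₀) (gal : X.Gal E₀ (An U (Du Wc))) {m : Finset L → ℕ}
    (ok : Finset L → Prop) (hok : ∀ J, (∀ l, X.τl l ⊆ (E₀ : Set S₀) → l ∉ J) → ok J)
    (comb : ∀ N : I → ℕ∞, (∀ i j k, ses i j k → N j = N i + N k) → ∀ J, ok J →
      (m J : ℕ∞) * N (iJ J) ≤ N ig)
    (cyc : ∃ (ν : Finset ι) (c : ℕ), ∀ n, ∃ χ : CharacterModule (Wc n), ∀ w : Wc n,
      (∀ t : P, χ (t • w) = 0) → (∏ i ∈ ν, u n i) ^ c • w = 0)
    (sep : ∀ J q (𝔮 : Ideal S), X.Pn 𝔮 → An U (Du (Yb (iJ J))) ≤ 𝔮.comap X.ψ →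
      2 * X.y q - algebraMap S₀ S (X.α q) ∈ 𝔮 → ∃ i, X.ψ (a i) ∈ 𝔮)
    (len : ∀ (η : Ideal S₀) [η.IsPrime], X.Tp η → E₀ ≤ η →
      ln η (S₀ ⧸ (E₀ ⊔ Ideal.span {X.π₀})) ≤ (m (ty X.τl η) : ℕ))
    (ch0 : ∀ Z : Ideal S₀, Z.IsPrime → Z ≤ X.p1 → E₀ ≤ Z → X.π₀ ∉ Z →
      ∃ 𝔮 η : Ideal S₀, 𝔮.IsPrime ∧ X.Tp η ∧ E₀ ≤ 𝔮 ∧ 𝔮 ≤ Z ∧ 𝔮 ≤ η)
    {Q : Ideal A} (q1 : Q.IsPrime) (q2 : Q ≤ p) (q3 : e ≤ Q) (q4 : jr X.π ∉ Q) (q5 : jr d ∉ Q)
    (q6 : X.Gal E₀ (Q.comap jr))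
    (hE : ∀ J, ok J → IA J ≤ p → ∃ E, Gp X jr p e d E ∧
      ((2 : ℕ) : WithBot ℕ∞) ≤ ringKrullDim (A ⧸ E) ∧ IA J ≤ E ∧
      Module.annihilator P (Y0 (iJ J)) ≤ E.comap jr)
    (t : P) (ht : ∀ n (w : Wc n), X.π ^ n • w = 0 → (∀ s, u n s • w = 0) → (D n * t) • w = 0) :
    jr t ∈ Q := by
  classical
  obtain ⟨ν, c, cyc⟩ := cyc
  have e1 : X.𝔢 ≤ Q.comap jr := Z.he.trans (Ideal.comap_mono q3)
  obtain ⟨J, j1, j2, j3⟩ := fin H K (HF.fd HM K.hU le gal) (m := m)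
    { comb := fun N hN J hJ => comb N hN J (hok J hJ)
      cyc := ⟨fun n => (∏ i ∈ ν, u n i) ^ c, (∏ i ∈ ν, a i) ^ c,
        cv_pow (cv_prod ν fun i => K.hu i) c, fun 𝔮 hq he => by
          obtain ⟨i, -, hi⟩ := Ideal.IsPrime.prod_mem_iff.1 (hq.mem_of_pow_mem _ he)
          exact ⟨i, hi⟩, fun n => HF.cyc HM (cyc n)⟩
      sep := sep, len := len, ch0 := ch0 } (Z := Q.comap jr) inferInstance
    (Z.hp ▸ Ideal.comap_mono q2) e1 q4 q6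
  rw [Z.hp] at j1
  obtain ⟨E, k1, k2, k3, k4⟩ := hE J (hok J j2) ((Z.ip J p (q3.trans q2)).1 j1)
  exact P022G.Fin.down HM HF U K.hU (Z := Q.comap jr) inferInstance
    (j3 (Z.up H K k1 k2 (by rw [ann_dual]; exact k4)) (Z.sf k1 k3)) (fun n s => e1 (K.ue n s)) K.hD
    q5 t ht

end Vale.Agent.P022S.Pt
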