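import Vale.Agent.P022S.Mod.La
import Vale.Agent.P022S.Mod.Sub
import Vale.Agent.P022S.Wx.Hd
import Vale.Agent.P022S.Pt.Lz

/-!
# P022S: the three steps of the chain argument from the modules of the forms side
-/

set_option linter.all false

open IsLocalRing Filter MvPowerSeries NumberField

noncomputable section

namespace Vale.Agent.P022S.H78

open Vale.Agent.P022 Vale.Agent.P022G.Mod Vale.Agent.P022S.Mod
open Vale.Agent.P022G (Hm subL resJ)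
open Vale.Agent.P022E.As (Tg cc tt dd yy mT Lv2 Sb2 mul2)
open Vale.Agent.P027M.S (Inert)
open Vale.Agent.P022D.Core (PS Coef ty)
open Vale.Agent.P022D.PA (Base Cv lim ln)
open Vale.Agent.P022E.Loc (Pl)
open Vale.Agent.P022E.GW (Ov)
open Vale.Agent.P022F.End0 (evt)
open Vale.Agent.P022G.Pt (Du An ann_dual RD FD)
open Vale.Agent.P022G.Ps (Ps2)
open Vale.Agent.P022S.Pt (Lz Gp MD0)
open Vale.Agent.P022S.Wx (HDX)

theorem two {P T : Type} [CommRing P] [CommRing T] [IsLocalRing P] {𝔊 : Set (Ideal T)}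
    {Φ : ∀ a : Ideal T, P →+* T ⧸ a} {m : Ideal T} {Y Y' : Type} [AddCommGroup Y] [Module T Y]
    [AddCommGroup Y'] [Module T Y'] [Module P Y] [Module P Y'] (h : Fm 𝔊 Φ m) (c : Ac 𝔊 Φ Y)
    (c' : Ac 𝔊 Φ Y') (w : Y) (s : Finset Y') (f : P) :
    ∃ t : T, f • w = t • w ∧ ∀ v ∈ s, f • v = t • v := by
  obtain ⟨Γ, k, e⟩ := (ac_iff.1 c').fin h.dir h.ne s
  obtain ⟨a, ha, r⟩ := c w
  obtain ⟨Γ', k', i1, i2⟩ := h.dir.dir Γ k _ ⟨a, ha, rfl⟩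
  obtain ⟨t, ht⟩ := h.dir.sur _ k' f
  exact ⟨t, r f t (i2 ht), fun w hw => e w hw f t (i1 ht)⟩

variable {O : Type} [CommRing O] [IsDomain O] [IsDiscreteValuationRing O] [Coef O] {ϖ : O}
  {L : Pl O} {T : Finset ℕ} {σ σ₀ : Type} [Fintype σ] [Fintype σ₀] {r : ℕ}
  [Base (PS O σ)] [Base (PS O σ₀)] {S₀ S₁ : Type} [CommRing S₀] [CommRing S₁] [Algebra S₀ S₁]

/-- what the rings know about the symbols -/
structure Rd (ϖ : O) (T : Finset ℕ) (q : ℕ → Fin r → ℕ) (v : ℕ → σ → Tg O) (v₀ : σ₀ → Tg O)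
    (jr : PS O σ →+* PS O σ₀) (ey : Fin r → σ) (τq : ℕ → Fin r → GQ) (U : Ultrafilter ℕ)
    (X : RD (PS O σ) S₀ S₁ L.C (Fin r)) (Xs : Finset ℕ) (E1 : L.C → Ideal S₀) (E0 : Ideal S₀) :
    Prop where
  pi : X.π = C ϖ
  he : (Kr (GS ϖ L T ∅ 0) (Ph v₀)).comap jr ≤ X.𝔢
  dim : X.d = X.a + (r + r + 2)
  hq : ∀ n i, q n i ∉ T
  ine : ∀ n i, ∃ P, Ov (q n i) P ∧ Inert P (τq n i)
  hU : (U : Filter ℕ) ≤ atTop
  tau : ∀ l, ∀ t ∈ X.τP l, ∀ n, ∃ g e o, ∀ b ∈ gq ϖ L T q n,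
    Ph (v n) b t = Ideal.Quotient.mk b (e * (tt (g * L.τ l) - tt g) + o * cc ϖ)
  new : ∀ l n, ∀ b ∈ gq ϖ L T q n, Ph (v n) b (X.DP l) = Ideal.Quotient.mk b (tt (L.φ l))
  y : ∀ i, X.ψ (MvPowerSeries.X (ey i)) = X.y i
  un : ∀ i, IsUnit (1 + X.y i)
  ta : ∀ i, ∃ (tn : ℕ → PS O σ) (ta : PS O σ), (∀ n, ∀ b ∈ gq ϖ L T q n,
    Ph (v n) b (tn n) = Ideal.Quotient.mk b (tt (τq n i))) ∧ Cv (U : Filter ℕ) tn ta ∧
    algebraMap S₀ S₁ (X.α i) = X.ψ ta - 2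
  e1 : ∀ l, X.E ≤ E1 l
  e0 : X.E ≤ E0
  eu : ∀ l : L.C, (l : ℕ) ∈ Xs → X.τl l ⊆ (E0 : Set S₀)
  gal : ∀ (N : ℕ → Type) [∀ n, AddCommGroup (N n)] [∀ n, Module (PS O σ) (N n)]
    (W : Ideal (Tg O) → Prop),
    (∀ n k : ℕ, ∃ a : Ideal (Tg O), Gs ϖ L T (Finset.univ.image (q n)) r a ∧ a ≤ mT L.r ∧ W a ∧
      (∀ i, dd (τq n i) - (1 + yy i) * (tt (τq n i) - (1 + yy i)) ∈ a) ∧
      ∀ Ψ : PS O σ →+* Tg O ⧸ a, Hm ((Ideal.Quotient.mk a).comp MvPolynomial.C)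
        (fun z => Ideal.Quotient.mk a (v n z)) Ψ →
        RingHom.ker Ψ ≤ Module.annihilator (PS O σ) (N n) ⊔ maximalIdeal (PS O σ) ^ k) →
    X.Gal X.E (An U N) ∧ (∀ l : L.C, (∀ a, W a → tt (L.τ l) ∈ a) → X.Gal (E1 l) (An U N)) ∧
      ((∀ a, W a → ∀ l ∈ Xs, ∀ g, tt (g * L.τ l) - tt g ∈ a) → X.Gal E0 (An U N))

variable {q : ℕ → Fin r → ℕ} {v : ℕ → σ → Tg O} {v₀ : σ₀ → Tg O} {jr : PS O σ →+* PS O σ₀}
  {ey : Fin r → σ} {lam : ℕ → Tg O →+* PS O σ} {τq φ : ℕ → Fin r → GQ} {U : Ultrafilter ℕ}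
  {X : RD (PS O σ) S₀ S₁ L.C (Fin r)} {Xs : Finset ℕ} {E1 : L.C → Ideal S₀} {E0 : Ideal S₀}
  {F : Type} [Field F] [CharP F 2] {Sf : P022D.R.Dat O F} {I : Type} {Y0 : I → Type} {W0 : Type}
  [∀ i, AddCommGroup (Y0 i)] [∀ i, Module (Tg O) (Y0 i)] [AddCommGroup W0] [Module (Tg O) W0]
  {ses : I → I → I → Prop} {ig ib : I} {b : I → ℕ} {c : ℕ}
  {Yb : ℕ → I → Type} {Wc : ℕ → Type}
  [∀ n i, AddCommGroup (Yb n i)] [∀ n i, Module (Tg O) (Yb n i)] [∀ n, AddCommGroup (Wc n)]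
  [∀ n, Module (Tg O) (Wc n)] {d : PS O σ}

theorem md [∀ n i, Module (PS O σ) (Yb n i)] [∀ i, Module (PS O σ) (Y0 i)]
    (A : La ϖ L T q v v₀ jr ey lam) (R : Rd ϖ T q v v₀ jr ey τq U X Xs E1 E0)
    {iJ : Finset L.C → I}
    (W : ∀ n, Lv2 ϖ Sf L Y0 W0 ses ig iJ b c n (q n) (τq n) (φ n) (Yb n) (Wc n))
    (sb0 : ∀ i, ∃ b, Sb2 (mT L.r) b (Y0 i)) (g1 : ∀ n i, Gd (gq ϖ L T q n) (Yb n i))
    (cY : ∀ n i, Ac (gq ϖ L T q n) (Ph (v n)) (Yb n i))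
    (c0 : ∀ n i, Ac (gq ϖ L T q n) (Ph (v n)) (Y0 i))
    (hd : Cv (U : Filter ℕ) (DD lam q φ c) d) :
    ∃ a, MD0 X U (uu lam τq) a (DD lam q φ c) d (fun i => Du fun n => Yb n i)
      (fun i => CharacterModule (Finset (Fin r) → Y0 i)) ses iJ := by
  choose a ha using fun i => lim (PS O σ) U fun n => uu lam τq n i
  refine ⟨a, A.md X R.pi R.he R.dim R.hq R.ine W sb0 cY c0 R.hU ha hd (fun J =>
    (R.gal _ (fun a => ∀ t ∈ (∅ : Set (Tg O)), t ∈ a) (A.gal (fun n => cY n _)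
      (fun n => (W n).dia _) R.hq R.ine (fun n => g1 n _) ∅ (fun _ h => h.elim)
      fun _ h => h.elim)).1) (fun J l hl t ht n w => ?_) R.new⟩
  obtain ⟨g, e, o, hg⟩ := R.tau l t ht n
  rw [(cY n _).all hg w, add_smul, mul_smul, mul_smul, sub_smul, (W n).unr J l hl g w, sub_self,
    (W n).pi, smul_zero, smul_zero, add_zero]

/-- **the package for PATCH and LOWER** -/
theorem pkg (A : La ϖ L T q v v₀ jr ey lam) (R : Rd ϖ T q v v₀ jr ey τq U X Xs E1 E0)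
    (hT : Sf.T = T) {iJ : Finset L.C → I} {ps : Prop} (hD : HDX ps ϖ Sf L Y0 W0 ses ig ib iJ)
    (W : ∀ n, Lv2 ϖ Sf L Y0 W0 ses ig iJ b c n (q n) (τq n) (φ n) (Yb n) (Wc n))
    (dY : ∀ n i, Dm O Sf.T (Finset.univ.image (q n)) (Yb n i))
    (hd : Cv (U : Filter ℕ) (DD lam q φ c) d) :
    ∃ (a : Fin r ⊕ Fin r → PS O σ) (M : I → ℕ → Type) (Gm : I → Type)
      (_ : ∀ i n, AddCommGroup (M i n)) (_ : ∀ i n, Module (PS O σ) (M i n))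
      (_ : ∀ i, AddCommGroup (Gm i)) (_ : ∀ i, Module (PS O σ) (Gm i)),
      MD0 X U (uu lam τq) a (DD lam q φ c) d M Gm ses iJ ∧
      (∀ i, Module.annihilator (PS O σ) (Gm i) = (A0 v₀ (Y0 i)).comap jr) ∧
      ∀ (l : L.C) (Pb : ℕ → Type) [∀ n, AddCommGroup (Pb n)] [∀ n, Module (Tg O) (Pb n)],
        L.r (L.τ l) = 1 → (∀ n, Ps2 ϖ Sf L n (q n) (τq n) (L.τ l) (Yb n ib) (Pb n) ∧
          Dm O Sf.T (Finset.univ.image (q n)) (Pb n)) →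
        ∃ (Cc : ℕ → Type) (_ : ∀ n, AddCommGroup (Cc n)) (_ : ∀ n, Module (PS O σ) (Cc n)),
          FD X U (uu lam τq) (DD lam q φ c) M Gm ib (E1 l) Cc := by
  subst hT
  have g1 : ∀ n i, Gd (gq ϖ L Sf.T q n) (Yb n i) := fun n i => gd_of ((W n).gm i) (dY n i)
  choose m1 cY using fun n i => A.mod n (g1 n i)
  choose m0 c0 an using fun i => A.mod0 (gd_of (hD.gm0 i) (hD.dm0 i))
  obtain ⟨a, M⟩ := md A R W hD.sb0 g1 cY (fun n i => c0 i n) hd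
  refine ⟨a, _, _, inferInstance, inferInstance, inferInstance, inferInstance, M,
    fun i => (P022G.Fin.ann_fun.trans (an i)), fun l Pb _ _ u1 P => ?_⟩
  have g2 : ∀ n, Gd (gq ϖ L Sf.T q n) (Pb n) := fun n => gd_of (P n).1.gm (P n).2
  choose m2 cP using fun n => A.mod n (g2 n)
  refine ⟨Du Pb, inferInstance, inferInstance, P022G.Pt.DF.fd (X := X)
    (R.pi ▸ A.tw.dm W hD.sb0 cY fun n i => c0 i n) (R.pi ▸ A.tw.dfp (fun n => (P n).1) cY cP) R.hU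
    (R.e1 l) ((R.gal _ (fun a => ∀ t ∈ ({tt (L.τ l)} : Set (Tg O)), t ∈ a)
      (A.gal cP (fun n => (P n).1.dia) R.hq R.ine g2 _ ?_ ?_)).2.1 l fun a h => h _ rfl)⟩
  · rintro _ rfl
    exact A.lv.fs.t_mem _
  · rintro _ rfl n w
    exact (P n).1.ps w

/-- **FINAL** -/
theorem final [IsNoetherianRing S₀] [IsNoetherianRing S₁] (A : La ϖ L T q v v₀ jr ey lam)
    (R : Rd ϖ T q v v₀ jr ey τq U X Xs E1 E0) (hX : Ax L Xs) (hXT : Xs ⊆ T) (hT : Sf.T = T \ Xs)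
    {iJ : Finset (subL L Xs).C → I} {ps : Prop}
    (hD : HDX ps ϖ Sf (subL L Xs) Y0 W0 ses ig ib iJ)
    (W' : ∀ n, Lv2 ϖ Sf (subL L Xs) Y0 W0 ses ig iJ b c n (q n) (τq n) (φ n) (Yb n) (Wc n))
    (dY : ∀ n i, Dm O Sf.T (Finset.univ.image (q n)) (Yb n i))
    (dW : ∀ n, Dm O Sf.T (Finset.univ.image (q n)) (Wc n))
    (hd : Cv (U : Filter ℕ) (DD lam q φ c) d) {p e : Ideal (PS O σ₀)}
    {IA : Finset L.C → Ideal (PS O σ₀)} (Z : Lz X jr p e IA) (H : X.Ok3) {m : Finset L.C → ℕ}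
    {a1 a2 : (subL L Xs).C → ℕ}
    (o1 : ∀ l : (subL L Xs).C, ∃ u, (l : ℕ) = 2 ^ (a1 l + 1) * (2 * u + 1) + 1)
    (o2 : ∀ l : (subL L Xs).C, ∃ u, (l : ℕ) + 1 = 2 ^ (a2 l + 1) * (2 * u + 1))
    (hm : ∀ J, m J = mul2 a1 a2 (resJ Xs J))
    (len : ∀ (η : Ideal S₀) [η.IsPrime], X.Tp η → E0 ≤ η →
      ln η (S₀ ⧸ (E0 ⊔ Ideal.span {X.π₀})) ≤ (m (ty X.τl η) : ℕ))
    (ch0 : ∀ Z : Ideal S₀, Z.IsPrime → Z ≤ X.p1 → E0 ≤ Z → X.π₀ ∉ Z →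
      ∃ 𝔮 η : Ideal S₀, 𝔮.IsPrime ∧ X.Tp η ∧ E0 ≤ 𝔮 ∧ 𝔮 ≤ Z ∧ 𝔮 ≤ η)
    {Q : Ideal (PS O σ₀)} (q1 : Q.IsPrime) (q2 : Q ≤ p) (q3 : e ≤ Q) (q4 : jr X.π ∉ Q)
    (q5 : jr d ∉ Q) (q6 : X.Gal E0 (Q.comap jr))
    (hE : ∀ J : Finset L.C, (∀ l ∈ J, (l : ℕ) ∉ Xs) → IA J ≤ p → ∃ E, Gp X jr p e d E ∧
      ((2 : ℕ) : WithBot ℕ∞) ≤ ringKrullDim (PS O σ₀ ⧸ E) ∧ IA J ≤ E ∧
      A0 v₀ (Y0 (iJ (resJ Xs J))) ≤ E) : A0 v₀ W0 ≤ Q := by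
  have e3 : Sf.T ⊆ T := hT ▸ Finset.sdiff_subset
  have hq : ∀ n i, q n i ∉ Xs := fun n i h => R.hq n i (hXT h)
  have hQ : ∀ n, ∀ l ∈ Xs, l ∉ Finset.univ.image (q n) := fun n l hl k => by
    obtain ⟨i, -, rfl⟩ := Finset.mem_image.1 k
    exact hq n i hl
  have W := fun n => lv_sub hX hT e3 (hq n) (W' n) (dY n) (dW n)
  have g1 : ∀ n i, Gd (gq ϖ L T q n) (Op (Yb n) i) := fun n i =>
    gd_of ((W n).gm i) (dm_op (fun i => (dY n i).up e3) i)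
  have g2 : ∀ n, Gd (gq ϖ L T q n) (Wc n) := fun n => gd_of (W n).gmC ((dW n).up e3)
  choose m1 cY using fun n i => A.mod n (g1 n i)
  choose m2 cW using fun n => A.mod n (g2 n)
  choose m0 c0 an using fun i => A.mod0 (gd_of (gm0_sub hX (fun i => hT ▸ hD.gm0 i)
    (fun i => hT ▸ hD.dm0 i) i) (dm_op (fun i => (hD.dm0 i).up e3) i))
  obtain ⟨m3, c3, an3⟩ := A.mod0 (N := W0) (gd_of (gm_sub hX
    (fun _ _ => Finset.notMem_empty _) (hT ▸ hD.gmW) (hT ▸ hD.dmW)) (hD.dmW.up e3))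
  obtain ⟨a, M⟩ := md A R W (sb0_sub hD.sb0) g1 cY (fun n i => c0 i n) hd
  intro f hf
  obtain ⟨t, rfl⟩ := Z.sur f
  refine Z.final H (ig := some ig) (Wc := Wc)
    (R.pi ▸ A.tw.dm W (sb0_sub hD.sb0) cY fun n i => c0 i n) (R.pi ▸ A.tw.df W cY cW) M R.e0
    ((R.gal _ (fun a => ∀ t ∈ {t : Tg O | ∃ l ∈ Xs, ∃ g, t = tt (g * L.τ l) - tt g}, t ∈ a)
      (A.gal cW (fun n => (W n).diaC) R.hq R.ine g2 _ (by
        rintro _ ⟨l, hl, g, rfl⟩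
        exact sub_mem (A.lv.fs.t_mem _) (A.lv.fs.t_mem _)) (by
        rintro _ ⟨l, hl, g, rfl⟩ n w
        exact (Ideal.mem_torsionOf_iff _ _).1 ((gs_unr hX (hQ n)
          (gd_of (hT ▸ (W' n).gmC) (hT ▸ dW n) w) l hl).1 g)))).2.2
      fun a h l hl g => h _ ⟨l, hl, g, rfl⟩) (m := m) (fun J => ∀ l ∈ J, (l : ℕ) ∉ Xs)
    (fun J h l hl k => h l (R.eu l k) hl) (fun N hN J hJ => by
      rw [iO_pos hJ, hm]
      exact hD.comb _ _ o1 o2 (fun i => N (some i))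
        (fun i j k h => hN _ _ _ ⟨i, j, k, h, rfl, rfl, rfl⟩) _)
    ⟨Finset.univ.map Function.Embedding.inr, c, fun n => by
      rw [Finset.prod_map]
      exact A.tw.cyc (q := q) (φ := φ) (Yb := fun n => Op (Yb n)) (W n) (cW n)⟩
    (fun J i 𝔮 hq k1 k2 => ⟨Sum.inr i, ?_⟩) len ch0 q1 q2 q3 q4 q5 q6 (fun J hJ k => ?_) t
    fun n w w1 w2 => ?_
  · obtain ⟨tn, ta, t1, t2, t3⟩ := R.ta i
    have h3 : X.ψ _ ∈ 𝔮 := k1 (A.rel (fun n => cY n _) (fun n => (W n).dia _) M.hu i t1 t2)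
    simp only [map_sub, map_mul, map_add, map_one, map_ofNat, R.y] at h3
    rw [t3] at k2
    have h5 : (1 + X.y i) * X.ψ (a (Sum.inr i)) ∈ 𝔮 := by
      rw [← neg_mem_iff, show -((1 + X.y i) * X.ψ (a (Sum.inr i))) = 2 * X.y i - (X.ψ ta - 2) +
        (X.ψ ta - (1 + X.y i) * (2 + X.ψ (a (Sum.inr i)))) by ring]
      exact add_mem k2 h3
    exact (hq.pr.mem_or_mem h5).resolve_left fun h =>
      hq.pr.ne_top (Ideal.eq_top_of_isUnit_mem _ h (R.un i))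
  · obtain ⟨E, k1, k2, k3, k4⟩ := hE J hJ k
    refine ⟨E, k1, k2, k3, ?_⟩
    rw [ann_pi, an, iO_pos hJ]
    exact Ideal.comap_mono k4
  · rw [R.pi] at w1
    obtain ⟨s, -, k⟩ := (W n).desc n le_rfl w ((A.tw.pw (cW n) n w).symm.trans w1)
      ((A.tw.fix (cW n)).1 w2)
    obtain ⟨z, z6, z7⟩ := two (A.tw.fm n) (cW n) (c3 n) w s t
    rw [mul_smul, z6, DD, A.tw.sm (cW n), ← mul_smul]
    exact k z fun v hv => (z7 v hv).symm.trans (Module.mem_annihilator.1 (an3.ge hf) v)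

end Vale.Agent.P022S.H78
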