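import Vale.Agent.P022S.Utr
import Vale.Agent.P022S.Mod.Wd

/-!
# P022S: the universal traces and the projection which forgets the last letters
-/

set_option linter.all false

noncomputable section

namespace Vale.Agent.P022S.Nt

open Vale.Agent.P022S.Ut

variable {n m : ℕ}

/-- the last letters are sent to one -/
def pj (n m : ℕ) : FreeGroup (Fin (n + m)) →* FreeGroup (Fin n) :=
  FreeGroup.lift (Fin.append FreeGroup.of fun _ : Fin m => 1)

theorem pj_l (i : Fin n) : pj n m (FreeGroup.of (Fin.castAdd m i)) = FreeGroup.of i := by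
  rw [pj, FreeGroup.lift_apply_of, Fin.append_left]

theorem pj_r (i : Fin m) : pj n m (FreeGroup.of (Fin.natAdd n i)) = 1 := by
  rw [pj, FreeGroup.lift_apply_of, Fin.append_right]

theorem pj_map (w : FreeGroup (Fin n)) : pj n m (FreeGroup.map (Fin.castAdd m) w) = w := by
  have : (pj n m).comp (FreeGroup.map (Fin.castAdd m)) = MonoidHom.id _ :=
    FreeGroup.ext_hom _ _ fun i => by
      rw [MonoidHom.comp_apply, FreeGroup.map.of, pj_l, MonoidHom.id_apply]
  exact DFunLike.congr_fun this w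

variable {P A : Type} [CommRing P] [CommRing A] {p : Finset (Fin (n + m)) → P}
  {r : Fin (n + m) → Pˣ} {p' : Finset (Fin n) → A} {r' : Fin n → Aˣ} {jr : P →+* A}

/-- `jr` is the projection on the symbols -/
structure Pj (p : Finset (Fin (n + m)) → P) (r : Fin (n + m) → Pˣ) (p' : Finset (Fin n) → A)
    (r' : Fin n → Aˣ) (jr : P →+* A) : Prop where
  hp : ∀ s, jr (p s) = p' (Finset.univ.filter fun i => Fin.castAdd m i ∈ s)
  h1 : ∀ i, jr (r (Fin.castAdd m i)) = r' i
  h2 : ∀ i, jr (r (Fin.natAdd n i)) = 1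

theorem Pj.spec (h : Pj p r p' r' jr) :
    aT p r ≤ (aT p' r').comap jr ∧ (∀ w, jr (tw p r w) - tw p' r' (pj n m w) ∈ aT p' r') ∧
      ∀ w, jr (dw r w) - dw r' (pj n m w) ∈ aT p' r' := by
  obtain ⟨a, b, c⟩ := Ut.spec (p := p) (r := r) (tf_a (p := p') (r := r')).1
    (Fin.append FreeGroup.of fun _ : Fin m => 1) ((Ideal.Quotient.mk (aT p' r')).comp jr)
    (fun s => by
      rw [RingHom.comp_apply, h.hp, Mod.wd_append]
      exact (Ideal.Quotient.eq.2 ((tf_a (p := p') (r := r')).2 _)).symm)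
    fun i => by
      induction i using Fin.addCases with
      | left i =>
        rw [RingHom.comp_apply, h.h1, Fin.append_left, MonoidHom.comp_apply, dw_of]
        rfl
      | right i =>
        rw [RingHom.comp_apply, h.h2, Fin.append_right, map_one, map_one]
        rfl
  exact ⟨fun u hu => Ideal.mem_comap.2 (Ideal.Quotient.eq_zero_iff_mem.1 (a hu)), fun w => Ideal.Quotient.eq.1 (b w),
    fun w => Ideal.Quotient.eq.1 (c w)⟩

section
variable (h : Pj p r p' r' jr) {Z : Ideal A} (hZ : aT p' r' ≤ Z)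
include h hZ

theorem Pj.tw_iff (w : FreeGroup (Fin (n + m))) :
    tw p r w ∈ Z.comap jr ↔ tw p' r' (pj n m w) ∈ Z := by
  rw [Ideal.mem_comap, ← Ideal.Quotient.eq_zero_iff_mem, ← Ideal.Quotient.eq_zero_iff_mem,
    Ideal.Quotient.eq.2 (hZ (h.spec.2.1 w))]

theorem Pj.sub_iff (w w' : FreeGroup (Fin (n + m))) :
    tw p r w - tw p r w' ∈ Z.comap jr ↔ tw p' r' (pj n m w) - tw p' r' (pj n m w') ∈ Z := by
  rw [Ideal.mem_comap, map_sub, ← Ideal.Quotient.eq, ← Ideal.Quotient.eq,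
    Ideal.Quotient.eq.2 (hZ (h.spec.2.1 w)), Ideal.Quotient.eq.2 (hZ (h.spec.2.1 w'))]

theorem Pj.tau_iff (i : Fin n) :
    (∀ w, tw p r (w * FreeGroup.of (Fin.castAdd m i)) - tw p r w ∈ Z.comap jr) ↔
      ∀ w, tw p' r' (w * FreeGroup.of i) - tw p' r' w ∈ Z := by
  refine ⟨fun k w => ?_, fun k w => ?_⟩
  · have := (h.sub_iff hZ _ _).1 (k (FreeGroup.map (Fin.castAdd m) w))
    rwa [map_mul, pj_map, pj_l] at this
  · rw [h.sub_iff hZ, map_mul, pj_l]
    exact k _

theorem Pj.of_iff (i : Fin n) :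
    tw p r (FreeGroup.of (Fin.castAdd m i)) ∈ Z.comap jr ↔ tw p' r' (FreeGroup.of i) ∈ Z := by
  rw [h.tw_iff hZ, pj_l]

theorem Pj.two_iff (i k : Fin n) :
    tw p r (FreeGroup.of (Fin.castAdd m i) * FreeGroup.of (Fin.castAdd m k)) ∈ Z.comap jr ↔
      tw p' r' (FreeGroup.of i * FreeGroup.of k) ∈ Z := by
  rw [h.tw_iff hZ, map_mul, pj_l, pj_l]

end

end Vale.Agent.P022S.Nt
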